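import Vale.Agent.P047.Upper

/-!
P047 (Gopalan-Servedio): the first constant-factor improvement of the Nisan-Szegedy bound
`M(d) ≤ d`.  Every Boolean function of degree at most `d` has level-one sum at most
`d - 16 d / (π² (e^K + 1))` with `K = 2 d τ / (1 - τ²)`, `τ = sin (π / (2 d))`; in particular at
most `0.98 d` for `d ≥ 4`, `0.96 d` for `d ≥ 5` and `0.94 d` for `d ≥ 20`.
-/

namespace Vale.Agent.Results.P047.ABernsteinBound

open Vale.Agent.P047

theorem result :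
    (∀ (n d : ℕ) (f : (Fin n → ℤˣ) → ℤˣ), 2 ≤ d → deg f ≤ d →
      levelOne f ≤ d - 16 * d / (Real.pi ^ 2 *
        (Real.exp (2 * ((d : ℝ) / (1 - Real.sin (Real.pi / (2 * d)) ^ 2)) *
          Real.sin (Real.pi / (2 * d))) + 1))) ∧
    (∀ (n d : ℕ) (f : (Fin n → ℤˣ) → ℤˣ), 4 ≤ d → deg f ≤ d → levelOne f ≤ 49 / 50 * d) ∧
    (∀ (n d : ℕ) (f : (Fin n → ℤˣ) → ℤˣ), 5 ≤ d → deg f ≤ d → levelOne f ≤ 24 / 25 * d) ∧
    (∀ (n d : ℕ) (f : (Fin n → ℤˣ) → ℤˣ), 20 ≤ d → deg f ≤ d → levelOne f ≤ 47 / 50 * d) := by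
  refine ⟨?_, ?_, ?_, ?_⟩
  · intro n d f hd hdeg
    exact levelOne_le_general f hd hdeg
  · intro n d f hd hdeg
    exact levelOne_le_four f hd hdeg
  · intro n d f hd hdeg
    exact levelOne_le_five f hd hdeg
  · intro n d f hd hdeg
    exact levelOne_le_twenty f hd hdeg

end Vale.Agent.Results.P047.ABernsteinBound
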