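import Vale.Agent.P047.Lower
import Vale.Agent.P047.Tensor

/-!
P047 (Gopalan-Servedio): five unconditional facts on the level-one sum `W(f)` versus the degree:
amplification, weak form implies sharp form, the bound for two-sided fractional subcube partitions,
the bound for one-sided ones, and `M(d) > B_d` for every `d ≥ 4`.
-/

namespace Vale.Agent.Results.P047.AllParts

open Vale.Agent.P047

theorem result :
    (∀ (n : ℕ) (f : (Fin n → ℤˣ) → ℤˣ) (k : ℕ), ∃ (m : ℕ) (F : (Fin m → ℤˣ) → ℤˣ),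
        fourier F ∅ = 0 ∧ levelOne F = (levelOne f + |fourier f ∅|) ^ (k + 1) ∧
        deg F ≤ (if Odd (deg f) then deg f else deg f + 1) ^ (k + 1)) ∧
    ((∃ C : ℝ, ∀ (n : ℕ) (f : (Fin n → ℤˣ) → ℤˣ), levelOne f ≤ C * Real.sqrt (deg f)) →
      ∀ (n : ℕ) (f : (Fin n → ℤˣ) → ℤˣ),
        levelOne f + |fourier f ∅| ≤ Real.sqrt (deg f + 1) ∧
        (Odd (deg f) → levelOne f + |fourier f ∅| ≤ Real.sqrt (deg f)) ∧
        (fourier f ∅ = 0 → levelOne f ≤ Real.sqrt (deg f))) ∧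
    (∀ (n m : ℕ) (f : (Fin n → ℤˣ) → ℤˣ) (ρ : Fin m → Fin n → Option ℤˣ) (α : Fin m → ℝ),
      (∀ q, 0 ≤ α q) →
      (∀ q x y, InCube (ρ q) x → InCube (ρ q) y → f x = f y) →
      (∀ x, ∑ q, α q * ind (ρ q) x = 1) →
      levelOne f ≤ Real.sqrt (∑ q, α q * (1 / 2) ^ codim (ρ q) * codim (ρ q)) ∧
      ∀ d : ℕ, (∀ q, codim (ρ q) ≤ d) →
        deg f ≤ d ∧ |levelOne f| ≤ Bmaj d ∧ levelOne f ≤ Real.sqrt d) ∧
    (∀ (n m d : ℕ) (f : (Fin n → ℤˣ) → ℤˣ) (s : ℤˣ) (ρ : Fin m → Fin n → Option ℤˣ)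
      (α : Fin m → ℝ), 1 ≤ d →
      (∀ q, 0 ≤ α q) →
      (∀ x, ∑ q, α q * ind (ρ q) x = if f x = s then 1 else 0) →
      (∀ q, codim (ρ q) ≤ d) →
      deg f ≤ d ∧ |levelOne f| ≤ 4 * Real.sqrt d) ∧
    (∀ d : ℕ, 4 ≤ d → ∃ (n : ℕ) (f : (Fin n → ℤˣ) → ℤˣ), deg f ≤ d ∧
      levelOne f = Bmaj d + (Nat.centralBinom ((d - 4) / 2) : ℝ) / 4 ^ ((d - 4) / 2 + 1)) := by
  refine ⟨?_, ?_, ?_, ?_, beats_majority⟩
  · intro n f k
    have h : Ach (levelOne f + |fourier f ∅|) (if Odd (deg f) then deg f else deg f + 1) := by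
      split_ifs with hodd
      · exact Ach.of_fun_odd f hodd
      · exact Ach.of_fun f
    exact h.pow k
  · rintro ⟨C, hC⟩ n f
    refine ⟨?_, ?_, ?_⟩
    · have := (Ach.of_fun f).le_sqrt hC
      simpa using this
    · intro hodd
      exact (Ach.of_fun_odd f hodd).le_sqrt hC
    · intro h0
      have h : Ach (levelOne f) (deg f) := ⟨n, f, h0, rfl, le_refl _⟩
      exact h.le_sqrt hC
  · intro n m f ρ α hα hmono hcover
    obtain ⟨h1, h2⟩ := levelOne_sq_le f ρ α hα hmono hcover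
    have h3 : levelOne f ≤ Real.sqrt (∑ q, α q * (1 / 2) ^ codim (ρ q) * codim (ρ q)) :=
      Real.le_sqrt_of_sq_le h2
    refine ⟨h3, ?_⟩
    intro d hd
    refine ⟨deg_le_of_codim_le f ρ α hmono hcover d hd,
      levelOne_le_Bmaj f ρ α hα hmono hcover d hd, le_trans h3 (Real.sqrt_le_sqrt ?_)⟩
    calc ∑ q, α q * (1 / 2) ^ codim (ρ q) * codim (ρ q)
        ≤ ∑ q, α q * (1 / 2) ^ codim (ρ q) * d := by
          apply Finset.sum_le_sum
          intro q _
          apply mul_le_mul_of_nonneg_left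
          · exact_mod_cast hd q
          · exact mul_nonneg (hα q) (by positivity)
      _ = d := by rw [← Finset.sum_mul, h1, one_mul]
  · intro n m d f s ρ α hd1 hα hcover hd
    have hc : ∀ x, ∑ q, α q * ind (ρ q) x = (1 - rv (-s) * rv (f x)) / 2 := by
      intro x
      rw [hcover x]
      rcases Int.units_eq_one_or s with h | h <;> rcases Int.units_eq_one_or (f x) with h' | h' <;>
        simp [h, h'] <;> norm_num
    exact ⟨deg_le_oneSided f (-s) ρ α hc d hd, levelOne_oneSided f (-s) ρ α hα hc d hd1 hd⟩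

end Vale.Agent.Results.P047.AllParts
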