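import Vale.Agent.P047.Lower

/-!
P047 (Gopalan-Servedio): the majority value `B_d` is beaten in every degree `d ≥ 4`
(so `M(d) > B_d`, with an explicit gain), while `|W(f)| ≤ B_d` does hold for every `f` having a
fractional partition of the cube into monochromatic subcubes of codimension at most `d`.
-/

namespace Vale.Agent.Results.P047.BeatsMajority

open Vale.Agent.P047

theorem result :
    (∀ d : ℕ, 4 ≤ d → ∃ (n : ℕ) (f : (Fin n → ℤˣ) → ℤˣ), deg f ≤ d ∧
      levelOne f = Bmaj d + (Nat.centralBinom ((d - 4) / 2) : ℝ) / 4 ^ ((d - 4) / 2 + 1) ∧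
      Bmaj d < levelOne f ∧ Bmaj (deg f) < levelOne f) ∧
    (∀ (n m d : ℕ) (f : (Fin n → ℤˣ) → ℤˣ) (ρ : Fin m → Fin n → Option ℤˣ) (α : Fin m → ℝ),
      (∀ q, 0 ≤ α q) →
      (∀ q x y, InCube (ρ q) x → InCube (ρ q) y → f x = f y) →
      (∀ x, ∑ q, α q * ind (ρ q) x = 1) →
      (∀ q, codim (ρ q) ≤ d) →
      deg f ≤ d ∧ |levelOne f| ≤ Bmaj d) := by
  refine ⟨beats_majority', ?_⟩
  intro n m d f ρ α hα hmono hcover hd
  exact ⟨deg_le_of_codim_le f ρ α hmono hcover d hd, levelOne_le_Bmaj f ρ α hα hmono hcover d hd⟩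

end Vale.Agent.Results.P047.BeatsMajority
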