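import Vale.Agent.P047.Junta

/-!
P047 (Gopalan-Servedio): the square-root bound holds with the degree replaced by the width of a
fractional partition of the cube into monochromatic subcubes (exact conical junta degree).
-/

namespace Vale.Agent.Results.P047.ConicalJunta

open Vale.Agent.P047

theorem result (n m : ℕ) (f : (Fin n → ℤˣ) → ℤˣ) (ρ : Fin m → Fin n → Option ℤˣ) (α : Fin m → ℝ)
    (hα : ∀ q, 0 ≤ α q)
    (hmono : ∀ q x y, InCube (ρ q) x → InCube (ρ q) y → f x = f y)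
    (hcover : ∀ x, ∑ q, α q * ind (ρ q) x = 1) :
    ∑ q, α q * (1 / 2) ^ codim (ρ q) = 1 ∧
    levelOne f ≤ Real.sqrt (∑ q, α q * (1 / 2) ^ codim (ρ q) * codim (ρ q)) ∧
    ∀ d : ℕ, (∀ q, codim (ρ q) ≤ d) → deg f ≤ d ∧ levelOne f ≤ Real.sqrt d := by
  obtain ⟨h1, h2⟩ := levelOne_sq_le f ρ α hα hmono hcover
  have h3 : levelOne f ≤ Real.sqrt (∑ q, α q * (1 / 2) ^ codim (ρ q) * codim (ρ q)) :=
    Real.le_sqrt_of_sq_le h2
  refine ⟨h1, h3, ?_⟩
  intro d hd
  refine ⟨deg_le_of_codim_le f ρ α hmono hcover d hd, le_trans h3 (Real.sqrt_le_sqrt ?_)⟩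
  calc ∑ q, α q * (1 / 2) ^ codim (ρ q) * codim (ρ q)
      ≤ ∑ q, α q * (1 / 2) ^ codim (ρ q) * d := by
        apply Finset.sum_le_sum
        intro q _
        apply mul_le_mul_of_nonneg_left
        · exact_mod_cast hd q
        · exact mul_nonneg (hα q) (by positivity)
    _ = d := by rw [← Finset.sum_mul, h1, one_mul]

end Vale.Agent.Results.P047.ConicalJunta
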