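import Vale.Agent.P047.OneSided

/-!
P047 (Gopalan-Servedio): the weak form of the square-root bound, with constant 4, holds with the
degree replaced by the width of a ONE-SIDED fractional partition: only one of the two level sets of
f has to be written as a (fractional) disjoint union of subcubes of codimension at most d.
-/

namespace Vale.Agent.Results.P047.OneSided

open Vale.Agent.P047

theorem result (n m d : ℕ) (hd1 : 1 ≤ d) (f : (Fin n → ℤˣ) → ℤˣ) (s : ℤˣ)
    (ρ : Fin m → Fin n → Option ℤˣ) (α : Fin m → ℝ)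
    (hα : ∀ q, 0 ≤ α q)
    (hcover : ∀ x, ∑ q, α q * ind (ρ q) x = if f x = s then 1 else 0)
    (hd : ∀ q, codim (ρ q) ≤ d) :
    deg f ≤ d ∧ |levelOne f| ≤ 4 * Real.sqrt d := by
  have hc : ∀ x, ∑ q, α q * ind (ρ q) x = (1 - rv (-s) * rv (f x)) / 2 := by
    intro x
    rw [hcover x]
    rcases Int.units_eq_one_or s with h | h <;> rcases Int.units_eq_one_or (f x) with h' | h' <;>
      simp [h, h'] <;> norm_num
  exact ⟨deg_le_oneSided f (-s) ρ α hc d hd, levelOne_oneSided f (-s) ρ α hα hc d hd1 hd⟩

end Vale.Agent.Results.P047.OneSided
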