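import Vale.Agent.P047.Tensor

/-!
P047 (Gopalan-Servedio): the weak form of the conjecture (some absolute constant `C`)
self-improves, by a tensor power argument, to the sharp constant `1`
(with `deg f + 1` in place of `deg f` when `deg f` is even and `f` is not balanced).
-/

namespace Vale.Agent.Results.P047.WeakImpliesSharp

open Vale.Agent.P047

theorem result :
    (∃ C : ℝ, ∀ (n : ℕ) (f : (Fin n → ℤˣ) → ℤˣ), levelOne f ≤ C * Real.sqrt (deg f)) →
      ∀ (n : ℕ) (f : (Fin n → ℤˣ) → ℤˣ),
        levelOne f + |fourier f ∅| ≤ Real.sqrt (deg f + 1) ∧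
        (Odd (deg f) → levelOne f + |fourier f ∅| ≤ Real.sqrt (deg f)) ∧
        (fourier f ∅ = 0 → levelOne f ≤ Real.sqrt (deg f)) := by
  rintro ⟨C, hC⟩ n f
  refine ⟨?_, ?_, ?_⟩
  · have := (Ach.of_fun f).le_sqrt hC
    simpa using this
  · intro hodd
    exact (Ach.of_fun_odd f hodd).le_sqrt hC
  · intro h0
    have h : Ach (levelOne f) (deg f) := ⟨n, f, h0, rfl, le_refl _⟩
    exact h.le_sqrt hC

end Vale.Agent.Results.P047.WeakImpliesSharp
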