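import Vale.Agent.P047.Tensor

/-!
P047 (Gopalan-Servedio): unconditional amplification of the level-one sum by block composition.
-/

namespace Vale.Agent.Results.P047.XAmplify

open Vale.Agent.P047

theorem result :
    (∀ (n : ℕ) (f : (Fin n → ℤˣ) → ℤˣ) (k : ℕ), ∃ (m : ℕ) (F : (Fin m → ℤˣ) → ℤˣ),
        fourier F ∅ = 0 ∧ levelOne F = (levelOne f + |fourier f ∅|) ^ (k + 1) ∧
        deg F ≤ (if Odd (deg f) then deg f else deg f + 1) ^ (k + 1)) ∧
    (∀ (n₁ n₂ : ℕ) (f : (Fin n₁ → ℤˣ) → ℤˣ) (g : (Fin n₂ → ℤˣ) → ℤˣ), fourier g ∅ = 0 →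
      ∃ (m : ℕ) (F : (Fin m → ℤˣ) → ℤˣ), fourier F ∅ = fourier f ∅ ∧
        levelOne F = levelOne f * levelOne g ∧ deg F ≤ deg f * deg g) := by
  constructor
  · intro n f k
    have h : Ach (levelOne f + |fourier f ∅|) (if Odd (deg f) then deg f else deg f + 1) := by
      split_ifs with hodd
      · exact Ach.of_fun_odd f hodd
      · exact Ach.of_fun f
    exact h.pow k
  · intro n₁ n₂ f g hg
    refine ⟨Fintype.card (Fin n₁ × Fin n₂), reindex (Fintype.equivFin _) (comp f g), ?_, ?_, ?_⟩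
    · rw [fourier_reindex_empty, fourier_comp_empty _ _ hg]
    · rw [levelOne_reindex, levelOne_comp _ _ hg]
    · exact le_trans (deg_reindex_le _ _) (deg_comp_le _ _)

end Vale.Agent.Results.P047.XAmplify
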